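import Vale.Agent.P235.R2.RED.Swept

/-! P235 (helper20), planar `O(log log n)`, leaf TE: comparison of the path metric of `G` with the
path metric of the auxiliary plane graph `Γ`, and the two-ends property of `Γ`.  Abstract form. -/

set_option autoImplicit false

namespace Vale.Agent.P235.H20

open SimpleGraph

section pd

variable {V : Type} {G : SimpleGraph V} {ℓ : Sym2 V → ℝ}

/-- length of a walk -/
noncomputable def len (ℓ : Sym2 V → ℝ) {x y : V} (w : G.Walk x y) : ℝ := (w.edges.map ℓ).sum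

theorem len_nil (x : V) : len ℓ (Walk.nil : G.Walk x x) = 0 := by simp [len]

theorem len_cons {x y z : V} (h : G.Adj x y) (w : G.Walk y z) :
    len ℓ (Walk.cons h w) = ℓ s(x, y) + len ℓ w := by simp [len]

theorem len_reverse {x y : V} (w : G.Walk x y) : len ℓ w.reverse = len ℓ w := by
  simp [len, Walk.edges_reverse, List.sum_reverse]

theorem len_append {x y z : V} (w : G.Walk x y) (w' : G.Walk y z) :
    len ℓ (w.append w') = len ℓ w + len ℓ w' := by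
  simp [len, Walk.edges_append]

theorem len_nonneg (hℓ : ∀ e ∈ G.edgeSet, 0 < ℓ e) {x y : V} (w : G.Walk x y) : 0 ≤ len ℓ w := by
  apply List.sum_nonneg
  intro a ha
  rw [List.mem_map] at ha
  obtain ⟨e, he, rfl⟩ := ha
  exact (hℓ e (w.edges_subset_edgeSet he)).le

theorem pd_le (hℓ : ∀ e ∈ G.edgeSet, 0 < ℓ e) {x y : V} (w : G.Walk x y) :
    pathDist G ℓ x y ≤ len ℓ w :=
  ciInf_le ⟨0, by rintro _ ⟨w, rfl⟩; exact len_nonneg hℓ w⟩ w

theorem le_pd (hc : G.Connected) {x y : V} {a : ℝ} (h : ∀ w : G.Walk x y, a ≤ len ℓ w) :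
    a ≤ pathDist G ℓ x y := by
  have : Nonempty (G.Walk x y) := hc x y
  exact le_ciInf h

theorem pd_nonneg (hℓ : ∀ e ∈ G.edgeSet, 0 < ℓ e) (x y : V) : 0 ≤ pathDist G ℓ x y :=
  Real.iInf_nonneg fun w => len_nonneg hℓ w

theorem pd_self (hℓ : ∀ e ∈ G.edgeSet, 0 < ℓ e) (x : V) : pathDist G ℓ x x = 0 :=
  le_antisymm ((pd_le hℓ (Walk.nil : G.Walk x x)).trans_eq (len_nil x)) (pd_nonneg hℓ x x)

theorem pd_comm_le (hc : G.Connected) (hℓ : ∀ e ∈ G.edgeSet, 0 < ℓ e) (x y : V) :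
    pathDist G ℓ x y ≤ pathDist G ℓ y x :=
  le_pd hc fun w => (pd_le hℓ w.reverse).trans_eq (len_reverse w)

theorem pd_comm (hc : G.Connected) (hℓ : ∀ e ∈ G.edgeSet, 0 < ℓ e) (x y : V) :
    pathDist G ℓ x y = pathDist G ℓ y x :=
  le_antisymm (pd_comm_le hc hℓ x y) (pd_comm_le hc hℓ y x)

/-- one step of the triangle inequality -/
theorem pd_step (hc : G.Connected) (hℓ : ∀ e ∈ G.edgeSet, 0 < ℓ e) {x y : V} (h : G.Adj x y)
    (z : V) : pathDist G ℓ x z ≤ ℓ s(x, y) + pathDist G ℓ y z := by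
  have : pathDist G ℓ x z - ℓ s(x, y) ≤ pathDist G ℓ y z :=
    le_pd hc fun w => by
      have := pd_le hℓ (Walk.cons h w)
      rw [len_cons] at this
      linarith
  linarith

end pd

section cmp

variable {V W : Type} {G : SimpleGraph V} {Γ : SimpleGraph W} {ℓ : Sym2 V → ℝ} {ℓ' : Sym2 W → ℝ}
  {F : Set V} {e : V → W} {ρ : V → ℝ}

/-- the hypotheses of the comparison: `F` is the set of free vertices of `G`, `e` embeds it into
`Γ`; edges of `Γ` at free vertices are edges of `G` between free vertices or they lead to a special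
vertex and are at least as long as the distance `ρ` to the visible vertices -/
structure Cmp (G : SimpleGraph V) (Γ : SimpleGraph W) (ℓ : Sym2 V → ℝ) (ℓ' : Sym2 W → ℝ)
    (F : Set V) (e : V → W) (ρ : V → ℝ) : Prop where
  inj : Set.InjOn e F
  pos : ∀ a ∈ G.edgeSet, 0 < ℓ a
  pos' : ∀ a ∈ Γ.edgeSet, 0 < ℓ' a
  conn : G.Connected
  conn' : Γ.Connected
  rho0 : ∀ x, 0 ≤ ρ x
  rho1 : ∀ x y, G.Adj x y → ρ x ≤ ℓ s(x, y) + ρ y
  rhoF : ∀ x, x ∉ F → ρ x = 0
  adj : ∀ x ∈ F, ∀ y ∈ F, G.Adj x y → Γ.Adj (e x) (e y) ∧ ℓ' s(e x, e y) ≤ ℓ s(x, y)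
  adj' : ∀ x ∈ F, ∀ w, Γ.Adj (e x) w →
    (∃ y ∈ F, w = e y ∧ G.Adj x y ∧ ℓ s(x, y) ≤ ℓ' s(e x, w)) ∨
      (w ∉ e '' F ∧ ρ x ≤ ℓ' s(e x, w))

theorem Cmp.reach (h : Cmp G Γ ℓ ℓ' F e ρ) {u w : W} (p : Γ.Walk u w) : ∀ a ∈ F, u = e a →
    ρ a ≤ len ℓ' p ∨ ∃ y ∈ F, w = e y := by
  induction p with
  | nil => exact fun a ha hu => Or.inr ⟨a, ha, hu⟩
  | @cons u w₁ w hadj p ih =>
    intro a ha hu
    subst hu
    rw [len_cons]
    rcases h.adj' a ha w₁ hadj with ⟨y, hy, rfl, hxy, hle⟩ | ⟨-, hle⟩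
    · rcases ih y hy rfl with h1 | h1
      · left
        have := h.rho1 a y hxy
        linarith
      · exact Or.inr h1
    · left
      have := len_nonneg h.pos' p
      linarith

theorem Cmp.lower_walk (h : Cmp G Γ ℓ ℓ' F e ρ) {b : V} (hb : b ∈ F) {u w : W} (p : Γ.Walk u w) :
    ∀ a ∈ F, u = e a → w = e b →
    pathDist G ℓ a b ≤ len ℓ' p ∨ ρ a + ρ b ≤ len ℓ' p := by
  induction p with
  | nil =>
    intro a ha hu hw
    left
    have : a = b := h.inj ha hb (hu.symm.trans hw)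
    rw [this, pd_self h.pos, len_nil]
  | @cons u w₁ w hadj p ih =>
    intro a ha hu hw
    subst hu
    rw [len_cons]
    rcases h.adj' a ha w₁ hadj with ⟨y, hy, rfl, hxy, hle⟩ | ⟨hn, hle⟩
    · rcases ih y hy rfl hw with h1 | h1
      · left
        have := pd_step h.conn h.pos hxy b
        linarith
      · right
        have := h.rho1 a y hxy
        linarith
    · right
      subst hw
      rcases h.reach p.reverse b hb rfl with h1 | ⟨y, hy, h1⟩
      · rw [len_reverse] at h1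
        linarith
      · exact absurd ⟨y, hy, h1.symm⟩ hn

/-- `d' ≥ min (d, ρ + ρ)` -/
theorem Cmp.lower (h : Cmp G Γ ℓ ℓ' F e ρ) {a b : V} (ha : a ∈ F) (hb : b ∈ F) :
    min (pathDist G ℓ a b) (ρ a + ρ b) ≤ pathDist Γ ℓ' (e a) (e b) :=
  le_pd h.conn' fun p => by
    rcases h.lower_walk hb p a ha rfl rfl with h1 | h1
    · exact (min_le_left _ _).trans h1
    · exact (min_le_right _ _).trans h1

theorem Cmp.rho_walk (h : Cmp G Γ ℓ ℓ' F e ρ) {x y : V} (p : G.Walk x y) :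
    ρ x ≤ len ℓ p + ρ y := by
  induction p with
  | nil => rw [len_nil]; linarith
  | cons hadj p ih =>
    rw [len_cons]
    have := h.rho1 _ _ hadj
    linarith

theorem Cmp.upper_walk (h : Cmp G Γ ℓ ℓ' F e ρ) {a b : V} (p : G.Walk a b) : b ∈ F → a ∈ F →
    pathDist Γ ℓ' (e a) (e b) ≤ len ℓ p ∨ ρ a + ρ b ≤ len ℓ p := by
  induction p with
  | nil => exact fun _ _ => Or.inl ((pd_self h.pos' _).trans_le (len_nil _).ge)
  | @cons a y b hadj p ih =>
    intro hb ha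
    rw [len_cons]
    by_cases hy : y ∈ F
    · rcases ih hb hy with h1 | h1
      · left
        obtain ⟨h2, h3⟩ := h.adj a ha y hy hadj
        have := pd_step h.conn' h.pos' h2 (e b)
        linarith
      · right
        have := h.rho1 a y hadj
        linarith
    · right
      have h1 := h.rho1 a y hadj
      have h2 := h.rho_walk p.reverse
      rw [len_reverse] at h2
      rw [h.rhoF y hy] at h1 h2
      linarith

/-- `d' ≤ d` where `d < ρ + ρ` -/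
theorem Cmp.upper (h : Cmp G Γ ℓ ℓ' F e ρ) {a b : V} (ha : a ∈ F) (hb : b ∈ F)
    (hd : pathDist G ℓ a b < ρ a + ρ b) :
    pathDist Γ ℓ' (e a) (e b) ≤ pathDist G ℓ a b := by
  by_contra hcon
  push Not at hcon
  have : Nonempty (G.Walk a b) := h.conn a b
  obtain ⟨p, hp⟩ := exists_lt_of_ciInf_lt (lt_min hcon hd)
  have hp' : len ℓ p < min (pathDist Γ ℓ' (e a) (e b)) (ρ a + ρ b) := hp
  rcases h.upper_walk p hb ha with h1 | h1
  · exact absurd (h1.trans_lt hp') (by simp)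
  · exact absurd (h1.trans_lt hp') (by simp)

end cmp

section ends

variable {W : Type} {Γ : SimpleGraph W} {ℓ₀ : Sym2 W → ℝ} {h : W → ℝ}

/-- height difference along an edge -/
noncomputable def hdiff (h : W → ℝ) : Sym2 W → ℝ :=
  Sym2.lift ⟨fun x y => |h x - h y|, fun x y => abs_sub_comm (h x) (h y)⟩

theorem hdiff_mk (h : W → ℝ) (x y : W) : hdiff h s(x, y) = |h x - h y| := rfl

/-- the length `max (ℓ₀, |Δh|)` -/
noncomputable def lmax (ℓ₀ : Sym2 W → ℝ) (h : W → ℝ) (e : Sym2 W) : ℝ := max (ℓ₀ e) (hdiff h e)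

theorem lmax_mk (ℓ₀ : Sym2 W → ℝ) (h : W → ℝ) (x y : W) :
    lmax ℓ₀ h s(x, y) = max (ℓ₀ s(x, y)) |h x - h y| := rfl

theorem lmax_eq {x y : W} (hxy : |h x - h y| ≤ ℓ₀ s(x, y)) : lmax ℓ₀ h s(x, y) = ℓ₀ s(x, y) := by
  rw [lmax_mk]; exact max_eq_left hxy

theorem lmax_pos (h0 : ∀ x y, Γ.Adj x y → 0 < ℓ₀ s(x, y) ∨ h x ≠ h y) :
    ∀ a ∈ Γ.edgeSet, 0 < lmax ℓ₀ h a := by
  intro a
  induction a using Sym2.ind with
  | _ x y =>
    intro ha
    rw [lmax_mk]
    rcases h0 x y ha with h1 | h1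
    · exact lt_of_lt_of_le h1 (le_max_left _ _)
    · exact lt_of_lt_of_le (abs_pos.2 (sub_ne_zero.2 h1)) (le_max_right _ _)

theorem h_walk {x y : W} (p : Γ.Walk x y) : |h x - h y| ≤ len (lmax ℓ₀ h) p := by
  induction p with
  | nil => simp [len_nil]
  | @cons x y z hadj p ih =>
    rw [len_cons, lmax_mk]
    have h1 : |h x - h z| ≤ |h x - h y| + |h y - h z| := abs_sub_le _ _ _
    have h2 := le_max_right (ℓ₀ s(x, y)) |h x - h y|
    linarith

/-- **two ends**: a plane graph with a height and steep edges at all vertices of `L` -/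
theorem twoEnds {σ : Equiv.Perm Γ.Dart} (hσ : PlaneMap Γ σ) (hc : Γ.Connected) {D : ℝ} (hD : 1 ≤ D)
    {L : Set W} {s t : W}
    (down : ∀ v ∈ L, v ≠ s → ∃ u ∈ L, Γ.Adj v u ∧ h u ≤ h v ∧ ℓ₀ s(v, u) ≤ D * (h v - h u))
    (up : ∀ v ∈ L, v ≠ t → ∃ u ∈ L, Γ.Adj v u ∧ h v ≤ h u ∧ ℓ₀ s(v, u) ≤ D * (h u - h v)) :
    Swp.TwoEnds Γ (lmax ℓ₀ h) D L := by
  refine ⟨σ, h, {s}, {t}, hσ, ⟨Or.inl ⟨s, rfl⟩, Or.inl ⟨t, rfl⟩, Or.inl ⟨s, rfl⟩⟩, ?_, ?_, ?_⟩
  · exact fun u _ v _ => le_pd hc fun w => h_walk w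
  · intro v hv hvs
    obtain ⟨u, hu, h1, h2, h3⟩ := down v hv hvs
    refine ⟨u, hu, h1, ?_⟩
    rw [lmax_mk]
    refine max_le h3 ?_
    rw [abs_of_nonneg (sub_nonneg.2 h2)]
    nlinarith [sub_nonneg.2 h2]
  · intro v hv hvs
    obtain ⟨u, hu, h1, h2, h3⟩ := up v hv hvs
    refine ⟨u, hu, h1, ?_⟩
    rw [lmax_mk]
    refine max_le h3 ?_
    rw [abs_sub_comm, abs_of_nonneg (sub_nonneg.2 h2)]
    nlinarith [sub_nonneg.2 h2]

end ends

end Vale.Agent.P235.H20
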