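import Vale.Agent.P235.H20.TE
import Vale.Agent.P235.Comp.Core

/-! P235 (helper20), planar `O(log log n)`, leaf TE: binding of the comparison lemma and of the
two-ends property to the auxiliary graph `T(U, P)`. -/

set_option autoImplicit false

namespace Vale.Agent.P235.H20

open SimpleGraph

variable {V : Type}

/-- `a`, `b` are consecutive in the piece `P` (literal of helper834) -/
def ConsIn (P : Set V) (w : V → ℝ) (a b : V) : Prop :=
  a ∈ P ∧ b ∈ P ∧ w a < w b ∧ ∀ c ∈ P, w c ≤ w a ∨ w b ≤ w c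

/-- the neighbours of the vertex `z` (literal of helper834) -/
def TZ (G : SimpleGraph V) (U P : Set V) (w : V → ℝ) (v : V) : Prop :=
  (v ∈ P ∧ ∀ c ∈ P, w v ≤ w c) ∨ (v ∈ P ∧ ∀ c ∈ P, w c ≤ w v) ∨
    (v ∈ U ∧ ∃ b, b ∉ U ∧ b ∉ P ∧ G.Adj v b)

/-- `Γ` is the graph `T(U, P)` -/
structure IsT (G : SimpleGraph V) (U P : Set V) (w : V → ℝ)
    (Γ : SimpleGraph (Option {v : V // v ∈ U ∨ v ∈ P})) : Prop where
  ss : ∀ u v, Γ.Adj (some u) (some v) ↔ u ≠ v ∧
    ((G.Adj (u : V) v ∧ ((u : V) ∈ U ∨ (v : V) ∈ U)) ∨ ConsIn P w u v ∨ ConsIn P w v u)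
  ns : ∀ v, Γ.Adj none (some v) ↔ TZ G U P w v

section graph

variable {G : SimpleGraph V} {U P : Set V} {w : V → ℝ}
  {Γ : SimpleGraph (Option {v : V // v ∈ U ∨ v ∈ P})}

theorem IsT.real (hT : IsT G U P w Γ) {u v : V} (hu : u ∈ U ∨ u ∈ P) (hv : v ∈ U ∨ v ∈ P)
    (h : G.Adj u v) (h' : u ∈ U ∨ v ∈ U) : Γ.Adj (some ⟨u, hu⟩) (some ⟨v, hv⟩) :=
  (hT.ss _ _).2 ⟨fun h1 => h.ne (congrArg Subtype.val h1), Or.inl ⟨h, h'⟩⟩

/-- the least element of a piece -/
theorem exists_min [Finite V] (hP : P.Nonempty) : ∃ b ∈ P, ∀ c ∈ P, w b ≤ w c :=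
  Set.exists_min_image P w (Set.toFinite P) hP

/-- the lower consecutive element -/
theorem exists_lower [Finite V] {b : V} (hb : b ∈ P) (h : ∃ c ∈ P, w c < w b) :
    ∃ a, ConsIn P w a b := by
  obtain ⟨c, hc, hcb⟩ := h
  obtain ⟨a, ⟨ha, hab⟩, hmax⟩ := Set.exists_max_image {c | c ∈ P ∧ w c < w b} w (Set.toFinite _)
    ⟨c, hc, hcb⟩
  refine ⟨a, ha, hb, hab, fun e he => ?_⟩
  by_cases h1 : w e < w b
  · exact Or.inl (hmax e ⟨he, h1⟩)
  · exact Or.inr (not_lt.1 h1)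

/-- the upper consecutive element -/
theorem exists_upper [Finite V] {a : V} (ha : a ∈ P) (h : ∃ c ∈ P, w a < w c) :
    ∃ b, ConsIn P w a b := by
  obtain ⟨c, hc, hcb⟩ := h
  obtain ⟨b, ⟨hb, hab⟩, hmin⟩ := Set.exists_min_image {c | c ∈ P ∧ w a < w c} w (Set.toFinite _)
    ⟨c, hc, hcb⟩
  refine ⟨b, ha, hb, hab, fun e he => ?_⟩
  by_cases h1 : w a < w e
  · exact Or.inr (hmin e ⟨he, h1⟩)
  · exact Or.inl (not_lt.1 h1)

/-- `T(U, P)` is connected -/
theorem IsT.connected [Finite V] (hT : IsT G U P w Γ) (connU : (G.induce U).Connected)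
    (hP : P.Nonempty) (nbP : ∀ b ∈ P, ∃ v ∈ U, G.Adj b v) : Γ.Connected := by
  obtain ⟨⟨u₀, hu₀⟩⟩ := connU.nonempty
  have h0 : ∀ (a c : U) (p : (G.induce U).Walk a c),
      Γ.Reachable (some ⟨a, Or.inl a.2⟩) (some ⟨c, Or.inl c.2⟩) := by
    intro a c p
    induction p with
    | nil => exact Reachable.refl _
    | @cons a b c hadj p ih =>
      have h2 : Γ.Adj (some ⟨a, Or.inl a.2⟩) (some ⟨b, Or.inl b.2⟩) :=
        hT.real _ _ hadj (Or.inl a.2)
      exact h2.reachable.trans ih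
  have h1 : ∀ x : U, Γ.Reachable (some ⟨u₀, Or.inl hu₀⟩) (some ⟨x, Or.inl x.2⟩) := by
    intro x
    obtain ⟨p⟩ := connU.preconnected ⟨u₀, hu₀⟩ x
    exact h0 ⟨u₀, hu₀⟩ x p
  have h2 : ∀ x : {v : V // v ∈ U ∨ v ∈ P}, Γ.Reachable (some ⟨u₀, Or.inl hu₀⟩) (some x) := by
    rintro ⟨x, hx⟩
    rcases hx with hx | hx
    · exact h1 ⟨x, hx⟩
    · obtain ⟨v, hv, hxv⟩ := nbP x hx
      exact (h1 ⟨v, hv⟩).trans (hT.real (Or.inl hv) (Or.inr hx) hxv.symm (Or.inl hv)).reachable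
  obtain ⟨b, hb, hmin⟩ := exists_min (w := w) hP
  have h3 : Γ.Reachable (some ⟨u₀, Or.inl hu₀⟩) none :=
    (h2 ⟨b, Or.inr hb⟩).trans ((hT.ns ⟨b, Or.inr hb⟩).2 (Or.inl ⟨hb, hmin⟩)).symm.reachable
  have h4 : ∀ x, Γ.Reachable (some ⟨u₀, Or.inl hu₀⟩) x := by
    intro x
    cases x with
    | none => exact h3
    | some x => exact h2 x
  exact { preconnected := fun x y => (h4 x).symm.trans (h4 y), nonempty := ⟨none⟩ }

end graph

section lengths

open Classical in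
/-- the lengths on `T(U, P)`: those of `G` on the edges of `G`, `0` on the others -/
noncomputable def l0 (G : SimpleGraph V) (ℓ : Sym2 V → ℝ) (U P : Set V) :
    Sym2 (Option {v : V // v ∈ U ∨ v ∈ P}) → ℝ :=
  Sym2.lift ⟨fun a b => match a, b with
    | some u, some v => if G.Adj (u : V) v ∧ ((u : V) ∈ U ∨ (v : V) ∈ U) then ℓ s((u : V), v) else 0
    | _, _ => 0, by
      intro a b
      cases a with
      | none => cases b with
        | none => rfl
        | some v => rfl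
      | some u => cases b with
        | none => rfl
        | some v =>
          have h1 : (G.Adj (u : V) v ∧ ((u : V) ∈ U ∨ (v : V) ∈ U)) ↔
              (G.Adj (v : V) u ∧ ((v : V) ∈ U ∨ (u : V) ∈ U)) := by
            rw [G.adj_comm, or_comm]
          simp only [h1]
          rw [Sym2.eq_swap]⟩

theorem l0_real {G : SimpleGraph V} {ℓ : Sym2 V → ℝ} {U P : Set V}
    {u v : {v : V // v ∈ U ∨ v ∈ P}} (h : G.Adj (u : V) v) (h' : (u : V) ∈ U ∨ (v : V) ∈ U) :
    l0 G ℓ U P s(some u, some v) = ℓ s((u : V), v) := by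
  simp only [l0, Sym2.lift_mk]
  rw [if_pos ⟨h, h'⟩]

theorem l0_path {G : SimpleGraph V} {ℓ : Sym2 V → ℝ} {U P : Set V}
    {u v : {v : V // v ∈ U ∨ v ∈ P}} (h : ¬ ((u : V) ∈ U ∨ (v : V) ∈ U)) :
    l0 G ℓ U P s(some u, some v) = 0 := by
  simp only [l0, Sym2.lift_mk]
  rw [if_neg fun h1 => h h1.2]

theorem l0_none {G : SimpleGraph V} {ℓ : Sym2 V → ℝ} {U P : Set V}
    (x : Option {v : V // v ∈ U ∨ v ∈ P}) : l0 G ℓ U P s(x, none) = 0 := by
  cases x <;> simp only [l0, Sym2.lift_mk]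

theorem l0_none' {G : SimpleGraph V} {ℓ : Sym2 V → ℝ} {U P : Set V}
    (x : Option {v : V // v ∈ U ∨ v ∈ P}) : l0 G ℓ U P s(none, x) = 0 := by
  cases x <;> simp only [l0, Sym2.lift_mk]

/-- heights on `T(U, P)` -/
def hT {U P : Set V} (hh : V → ℝ) (H₀ : ℝ) : Option {v : V // v ∈ U ∨ v ∈ P} → ℝ
  | none => H₀
  | some v => hh v

end lengths

/-- the data of one step for a coordinate, as far as needed: `M` is the set of the vertices of `U`
visible after the step, `F ⊆ U` the set of those which are invisible before the step, `ρ` the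
distance to the vertices visible before the step, `hh` the height on `U ∪ P` -/
structure Step (G : SimpleGraph V) (ℓ : Sym2 V → ℝ) (U P : Set V) (w hh : V → ℝ) (M F : Set V)
    (ρ : V → ℝ) : Prop where
  pos : ∀ a ∈ G.edgeSet, 0 < ℓ a
  conn : G.Connected
  disj : ∀ v ∈ P, v ∉ U
  connU : (G.induce U).Connected
  neP : P.Nonempty
  nbP : ∀ b ∈ P, ∃ v ∈ U, G.Adj b v
  inj : ∀ a ∈ P, ∀ b ∈ P, w a = w b → a = b
  hhP : ∀ a ∈ P, ∀ b ∈ P, w a < w b → hh a < hh b
  MU : M ⊆ U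
  FU : F ⊆ U
  slope : ∀ x ∈ F, ∀ y ∈ F, G.Adj x y → |hh x - hh y| ≤ ℓ s(x, y)
  dn : ∀ v ∈ M, ∃ y, G.Adj v y ∧ (y ∈ M ∨ y ∈ P) ∧ ℓ s(v, y) ≤ 4 * (hh v - hh y)
  up : ∀ v ∈ M, (∃ y, G.Adj v y ∧ (y ∈ M ∨ y ∈ P) ∧ ℓ s(v, y) ≤ 4 * (hh y - hh v)) ∨
    ∃ b, b ∉ U ∧ b ∉ P ∧ G.Adj v b
  rho0 : ∀ x, 0 ≤ ρ x
  rho1 : ∀ x y, G.Adj x y → ρ x ≤ ℓ s(x, y) + ρ y
  rhoF : ∀ x, x ∉ F → ρ x = 0

section step

variable {G : SimpleGraph V} {ℓ : Sym2 V → ℝ} {U P : Set V} {w hh : V → ℝ} {M F : Set V}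
  {ρ : V → ℝ} {Γ : SimpleGraph (Option {v : V // v ∈ U ∨ v ∈ P})}

open Classical in
/-- the vertex of `T(U, P)` of a vertex of `G` (`z` outside `U ∪ P`) -/
noncomputable def em (U P : Set V) (v : V) : Option {v : V // v ∈ U ∨ v ∈ P} :=
  if h : v ∈ U ∨ v ∈ P then some ⟨v, h⟩ else none

theorem em_U {v : V} (h : v ∈ U) : em U P v = some ⟨v, Or.inl h⟩ := dif_pos _

theorem em_some (v : {v : V // v ∈ U ∨ v ∈ P}) : em U P v = some v := dif_pos _

/-- the lengths of `Γ` -/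
noncomputable def l1 (G : SimpleGraph V) (ℓ : Sym2 V → ℝ) (U P : Set V) (hh : V → ℝ) (H₀ : ℝ) :
    Sym2 (Option {v : V // v ∈ U ∨ v ∈ P}) → ℝ := lmax (l0 G ℓ U P) (hT hh H₀)

theorem Step.pos' (h : Step G ℓ U P w hh M F ρ) (hT' : IsT G U P w Γ) {H₀ : ℝ}
    (hH : ∀ v, hh v < H₀) : ∀ a ∈ Γ.edgeSet, 0 < l1 G ℓ U P hh H₀ a := by
  apply lmax_pos
  intro x y hxy
  cases x with
  | none => cases y with
    | none => exact absurd rfl hxy.ne
    | some v => exact Or.inr (hH v).ne'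
  | some u => cases y with
    | none => exact Or.inr (hH u).ne
    | some v =>
      rcases ((hT'.ss u v).1 hxy).2 with h1 | h1 | h1
      · left
        rw [l0_real h1.1 h1.2]
        exact h.pos _ (G.mem_edgeSet.2 h1.1)
      · exact Or.inr (h.hhP _ h1.1 _ h1.2.1 h1.2.2.1).ne
      · exact Or.inr (h.hhP _ h1.1 _ h1.2.1 h1.2.2.1).ne'

/-- the comparison data -/
theorem Step.cmp [Finite V] (h : Step G ℓ U P w hh M F ρ) (hT' : IsT G U P w Γ) {H₀ : ℝ}
    (hH : ∀ v, hh v < H₀) (hH' : ∀ v, hh v + ρ v ≤ H₀) :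
    Cmp G Γ ℓ (l1 G ℓ U P hh H₀) F (em U P) ρ where
  inj := by
    intro a ha b hb hab
    rw [em_U (h.FU ha), em_U (h.FU hb)] at hab
    exact congrArg Subtype.val (Option.some.inj hab)
  pos := h.pos
  pos' := h.pos' hT' hH
  conn := h.conn
  conn' := hT'.connected h.connU h.neP h.nbP
  rho0 := h.rho0
  rho1 := h.rho1
  rhoF := h.rhoF
  adj := by
    intro x hx y hy hxy
    rw [em_U (h.FU hx), em_U (h.FU hy)]
    refine ⟨hT'.real _ _ hxy (Or.inl (h.FU hx)), ?_⟩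
    rw [l1, lmax_mk, l0_real (u := ⟨x, _⟩) (v := ⟨y, _⟩) hxy (Or.inl (h.FU hx))]
    exact max_le le_rfl (h.slope x hx y hy hxy)
  adj' := by
    intro x hx v hv
    rw [em_U (h.FU hx)] at hv ⊢
    cases v with
    | none =>
      right
      refine ⟨?_, ?_⟩
      · rintro ⟨a, ha, h1⟩
        rw [em_U (h.FU ha)] at h1
        exact absurd h1 (by simp)
      · rw [l1, lmax_mk]
        refine le_trans ?_ (le_max_right _ _)
        have h1 : H₀ - hh x ≤ |hh x - H₀| := by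
          rw [abs_sub_comm]; exact le_abs_self _
        have h2 := hH' x
        change ρ x ≤ |hh x - H₀|
        linarith
    | some y =>
      have h1 := ((hT'.ss _ _).1 hv).2
      have hxP : x ∉ P := fun hxP => h.disj x hxP (h.FU hx)
      have h2 : G.Adj x y := by
        rcases h1 with h1 | h1 | h1
        · exact h1.1
        · exact absurd h1.1 hxP
        · exact absurd h1.2.1 hxP
      have h3 : ℓ s(x, (y : V)) ≤ l1 G ℓ U P hh H₀ s(some ⟨x, Or.inl (h.FU hx)⟩, some y) := by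
        rw [l1, lmax_mk, l0_real (u := ⟨x, _⟩) (v := y) h2 (Or.inl (h.FU hx))]
        exact le_max_left _ _
      by_cases hy : (y : V) ∈ F
      · exact Or.inl ⟨y, hy, (em_some y).symm, h2, h3⟩
      · right
        refine ⟨?_, ?_⟩
        · rintro ⟨a, ha, h4⟩
          rw [em_U (h.FU ha)] at h4
          have h5 := congrArg Subtype.val (Option.some.inj h4)
          exact hy (h5 ▸ ha)
        · have h4 := h.rho1 x y h2
          rw [h.rhoF y hy] at h4
          linarith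

/-- the visible part of `T(U, P)` -/
def vis (U P M : Set V) : Set (Option {v : V // v ∈ U ∨ v ∈ P}) :=
  {x | ∀ v, x = some v → (v : V) ∈ M ∨ (v : V) ∈ P}

theorem vis_none : (none : Option {v : V // v ∈ U ∨ v ∈ P}) ∈ vis U P M := fun v hv => by
  simp at hv

theorem vis_some {v : {v : V // v ∈ U ∨ v ∈ P}} (hv : (v : V) ∈ M ∨ (v : V) ∈ P) :
    some v ∈ vis U P M := fun u hu => by
  rw [← Option.some.inj hu]; exact hv

/-- **two ends** -/
theorem Step.twoEnds [Finite V] (h : Step G ℓ U P w hh M F ρ) (hT' : IsT G U P w Γ)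
    {σ : Equiv.Perm Γ.Dart} (hσ : PlaneMap Γ σ) {H₀ : ℝ} (hH : ∀ v, hh v < H₀) :
    Swp.TwoEnds Γ (l1 G ℓ U P hh H₀) 4 (vis U P M) := by
  obtain ⟨b, hb, hmin⟩ := exists_min (w := w) h.neP
  have hlP : ∀ {u v : {v : V // v ∈ U ∨ v ∈ P}}, (u : V) ∈ P → (v : V) ∈ P →
      l0 G ℓ U P s(some u, some v) = 0 := fun hu hv =>
    l0_path (not_or.2 ⟨h.disj _ hu, h.disj _ hv⟩)
  refine H20.twoEnds (s := some ⟨b, Or.inr hb⟩) (t := none) hσ
    (hT'.connected h.connU h.neP h.nbP) (by norm_num) ?_ ?_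
  · intro x hx hxs
    cases x with
    | none =>
      refine ⟨some ⟨b, Or.inr hb⟩, vis_some (Or.inr hb), (hT'.ns _).2 (Or.inl ⟨hb, hmin⟩),
        (hH b).le, ?_⟩
      rw [l0_none']
      have := hH b
      change (0 : ℝ) ≤ 4 * (H₀ - hh b)
      linarith
    | some v =>
      rcases hx v rfl with hv | hv
      · obtain ⟨y, h1, h2, h3⟩ := h.dn v hv
        have hy : y ∈ U ∨ y ∈ P := h2.imp (fun h1 => h.MU h1) id
        have hvy := hT'.real v.2 hy h1 (Or.inl (h.MU hv))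
        refine ⟨some ⟨y, hy⟩, vis_some h2, hvy, ?_, ?_⟩
        · have := h.pos _ (G.mem_edgeSet.2 h1)
          change hh y ≤ hh v
          linarith
        · rw [l0_real (u := v) (v := ⟨y, hy⟩) h1 (Or.inl (h.MU hv))]
          exact h3
      · have h1 : ∃ c ∈ P, w c < w v := by
          refine ⟨b, hb, lt_of_le_of_ne (hmin v hv) fun h1 => hxs ?_⟩
          have h2 := h.inj b hb v hv h1
          exact congrArg some (Subtype.ext h2.symm)
        obtain ⟨a, ha⟩ := exists_lower hv h1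
        have h2 := h.hhP a ha.1 v hv ha.2.2.1
        refine ⟨some ⟨a, Or.inr ha.1⟩, vis_some (Or.inr ha.1), (hT'.ss _ _).2 ⟨?_, ?_⟩, h2.le, ?_⟩
        · exact fun h3 => lt_irrefl _ (ha.2.2.1.trans_eq (congrArg (fun u => w (Subtype.val u)) h3))
        · exact Or.inr (Or.inr ha)
        · rw [hlP hv ha.1]
          change (0 : ℝ) ≤ 4 * (hh v - hh a)
          linarith
  · intro x hx hxt
    cases x with
    | none => exact absurd rfl hxt
    | some v =>
      have hnone : Γ.Adj none (some v) → ∃ u ∈ vis U P M, Γ.Adj (some v) u ∧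
          hT hh H₀ (some v) ≤ hT hh H₀ u ∧
          l0 G ℓ U P s(some v, u) ≤ 4 * (hT hh H₀ u - hT hh H₀ (some v)) := by
        intro h1
        have h2 := hH v
        refine ⟨none, vis_none, h1.symm, h2.le, ?_⟩
        rw [l0_none]
        change (0 : ℝ) ≤ 4 * (H₀ - hh v)
        linarith
      rcases hx v rfl with hv | hv
      · rcases h.up v hv with ⟨y, h1, h2, h3⟩ | h1
        · have hy : y ∈ U ∨ y ∈ P := h2.imp (fun h1 => h.MU h1) id
          have hvy := hT'.real v.2 hy h1 (Or.inl (h.MU hv))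
          refine ⟨some ⟨y, hy⟩, vis_some h2, hvy, ?_, ?_⟩
          · have := h.pos _ (G.mem_edgeSet.2 h1)
            change hh v ≤ hh y
            linarith
          · rw [l0_real (u := v) (v := ⟨y, hy⟩) h1 (Or.inl (h.MU hv))]
            exact h3
        · exact hnone ((hT'.ns v).2 (Or.inr (Or.inr ⟨h.MU hv, h1⟩)))
      · by_cases h1 : ∃ c ∈ P, w v < w c
        · obtain ⟨c, hc⟩ := exists_upper hv h1
          have h2 := h.hhP v hv c hc.2.1 hc.2.2.1
          refine ⟨some ⟨c, Or.inr hc.2.1⟩, vis_some (Or.inr hc.2.1), (hT'.ss _ _).2 ⟨?_, ?_⟩,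
            h2.le, ?_⟩
          · exact fun h3 => lt_irrefl _
              (hc.2.2.1.trans_eq (congrArg (fun u => w (Subtype.val u)) h3).symm)
          · exact Or.inr (Or.inl hc)
          · rw [hlP hv hc.2.1]
            change (0 : ℝ) ≤ 4 * (hh c - hh v)
            linarith
        · push Not at h1
          exact hnone ((hT'.ns v).2 (Or.inr (Or.inl ⟨hv, h1⟩)))

end step

end Vale.Agent.P235.H20
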