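import Vale.Agent.P235.H20.TE2
import Vale.Agent.P235.H296.Half
import Vale.Agent.P235.R2.RED.SweptE

/-! P235 (helper20), planar `O(log log n)`, section (4): the map of one step, from the black box
on two ends. -/

set_option autoImplicit false

namespace Vale.Agent.P235.H20

open SimpleGraph

/-- the black box: sets with two ends embed with distortion `A (log log n + 1)` -/
def BB (A : ℝ) : Prop :=
  ∀ (W : Type) [Finite W] (Γ : SimpleGraph W) (ℓ' : Sym2 W → ℝ), Γ.Connected →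
    (∀ e ∈ Γ.edgeSet, 0 < ℓ' e) → ∀ L : Set W, Swp.TwoEnds Γ ℓ' 4 L →
      EmbedsL1 (fun u v : L => pathDist Γ ℓ' u v) (A * Swp.LL (Nat.card W))

section

variable {V : Type} {G : SimpleGraph V} {ℓ : Sym2 V → ℝ} {U P : Set V} {w hh : V → ℝ}
  {M F : Set V} {ρ : V → ℝ} {Γ : SimpleGraph (Option {v : V // v ∈ U ∨ v ∈ P})}

theorem LL_card [Finite V] [Nonempty V] (U P : Set V) :
    Swp.LL (Nat.card (Option {v : V // v ∈ U ∨ v ∈ P})) ≤ 2 * Swp.LL (Nat.card V) := by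
  have h1 : Nat.card (Option {v : V // v ∈ U ∨ v ∈ P}) ≤ 2 * Nat.card V := by
    rw [Finite.card_option]
    have h2 : Nat.card {v : V // v ∈ U ∨ v ∈ P} ≤ Nat.card V :=
      Nat.card_le_card_of_injective _ Subtype.val_injective
    have h3 : 0 < Nat.card V := Nat.card_pos
    omega
  refine (Swp.LL_mono h1).trans ?_
  have h3 : Nat.card V ≠ 0 := Nat.card_pos.ne'
  have h4 : Nat.log 2 (2 * Nat.card V) = Nat.log 2 (Nat.card V) + 1 := by
    rw [mul_comm]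
    exact Nat.log_mul_base (by norm_num) h3
  have h5 : Nat.log 2 (Nat.log 2 (2 * Nat.card V) + 1) ≤
      Nat.log 2 (Nat.log 2 (Nat.card V) + 1) + 1 := by
    rw [h4]
    calc Nat.log 2 (Nat.log 2 (Nat.card V) + 1 + 1)
        ≤ Nat.log 2 ((Nat.log 2 (Nat.card V) + 1) * 2) := Nat.log_mono_right (by omega)
      _ = Nat.log 2 (Nat.log 2 (Nat.card V) + 1) + 1 :=
        Nat.log_mul_base (by norm_num) (by omega)
  have h6 : (Nat.log 2 (Nat.log 2 (2 * Nat.card V) + 1) : ℝ) ≤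
      (Nat.log 2 (Nat.log 2 (Nat.card V) + 1) : ℝ) + 1 := by exact_mod_cast h5
  have h7 : (0 : ℝ) ≤ (Nat.log 2 (Nat.log 2 (Nat.card V) + 1) : ℝ) := Nat.cast_nonneg _
  unfold Swp.LL
  linarith

/-- **(4)(a)** the comparison semimetric on the newly visible vertices -/
theorem Step.embed [Finite V] (h : Step G ℓ U P w hh M F ρ) (hT' : IsT G U P w Γ)
    {σ : Equiv.Perm Γ.Dart} (hσ : PlaneMap Γ σ) {A : ℝ} (hA : 1 ≤ A) (hBB : BB A) :
    ∃ R : V → V → ℝ, IsL1 R ∧ ∀ a ∈ F, a ∈ M → ∀ b ∈ F, b ∈ M →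
      (pathDist G ℓ a b < ρ a + ρ b → R a b ≤ pathDist G ℓ a b) ∧
      min (pathDist G ℓ a b) (ρ a + ρ b) ≤ 2 * A * Swp.LL (Nat.card V) * R a b := by
  classical
  have hne : Nonempty V := ⟨h.neP.some⟩
  obtain ⟨m, hm⟩ : ∃ m, ∀ v, hh v + ρ v ≤ m :=
    ⟨_, fun v => le_ciSup (f := fun v => hh v + ρ v) (Set.finite_range _).bddAbove v⟩
  have hH : ∀ v, hh v < m + 1 := fun v => by linarith [hm v, h.rho0 v]
  have hH' : ∀ v, hh v + ρ v ≤ m + 1 := fun v => by linarith [hm v]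
  have hcmp := h.cmp hT' hH hH'
  obtain ⟨Ω, mΩ, μ, f, hf⟩ := hBB _ Γ (l1 G ℓ U P hh (m + 1)) hcmp.conn' hcmp.pos' _
    (h.twoEnds hT' hσ hH)
  have hK : A * Swp.LL (Nat.card (Option {v : V // v ∈ U ∨ v ∈ P})) ≤
      2 * A * Swp.LL (Nat.card V) := by
    have h1 := mul_le_mul_of_nonneg_left (LL_card U P) (by linarith : 0 ≤ A)
    linarith
  have hL := Swp.LL_one (Nat.card V)
  have hK0 : 0 < 2 * A * Swp.LL (Nat.card V) := by positivity
  generalize 2 * A * Swp.LL (Nat.card V) = K at hK hK0 ⊢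
  have hin : ∀ v, v ∈ M → em U P v ∈ vis U P M := fun v hv => by
    rw [em_U (h.MU hv)]
    exact vis_some (Or.inl hv)
  let φ : V → vis U P M := fun v => if hv : v ∈ M then ⟨em U P v, hin v hv⟩ else ⟨none, vis_none⟩
  have hφ : ∀ v, v ∈ M → (φ v : Option {v : V // v ∈ U ∨ v ∈ P}) = em U P v := fun v hv => by
    simp only [φ, dif_pos hv]
  have hR : L1S (fun x y => 1 / K * ‖f (φ x) - f (φ y)‖) :=
    L1S.smul ⟨Ω, mΩ, μ, fun x => f (φ x), fun _ _ => rfl⟩ (by positivity)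
  refine ⟨_, hR.isL1, fun a ha ha' b hb hb' => ⟨fun hd => ?_, ?_⟩⟩
  · have h1 : ‖f (φ a) - f (φ b)‖ ≤ A * Swp.LL (Nat.card (Option {v : V // v ∈ U ∨ v ∈ P})) *
        pathDist Γ (l1 G ℓ U P hh (m + 1)) (φ a) (φ b) := (hf (φ a) (φ b)).2
    rw [hφ a ha', hφ b hb'] at h1
    have h2 := hcmp.upper ha hb hd
    have h3 : ‖f (φ a) - f (φ b)‖ ≤ K * pathDist G ℓ a b := by
      have h4 := pd_nonneg hcmp.pos' (em U P a) (em U P b)
      nlinarith
    rw [one_div, inv_mul_le_iff₀ hK0]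
    exact h3
  · have h1 : pathDist Γ (l1 G ℓ U P hh (m + 1)) (φ a) (φ b) ≤ ‖f (φ a) - f (φ b)‖ :=
      (hf (φ a) (φ b)).1
    rw [hφ a ha', hφ b hb'] at h1
    have h2 := (hcmp.lower ha hb).trans h1
    have h3 : K * (1 / K * ‖f (φ a) - f (φ b)‖) = ‖f (φ a) - f (φ b)‖ := by
      field_simp
    rw [h3]
    exact h2

theorem Step.rho_lip (h : Step G ℓ U P w hh M F ρ) (x y : V) :
    |ρ x - ρ y| ≤ pathDist G ℓ x y := by
  have h1 : ∀ {x y : V} (p : G.Walk x y), ρ x ≤ len ℓ p + ρ y := by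
    intro x y p
    induction p with
    | nil => rw [len_nil]; linarith
    | cons hadj p ih =>
      rw [len_cons]
      have := h.rho1 _ _ hadj
      linarith
  refine le_pd h.conn fun p => abs_le.2 ⟨?_, ?_⟩
  · have h2 := h1 p.reverse
    rw [len_reverse] at h2
    linarith
  · have h2 := h1 p
    linarith

/-- **(4)(b)** the map of one step on the vertices visible after the step -/
theorem Step.quot [Finite V] (h : Step G ℓ U P w hh M F ρ) (hT' : IsT G U P w Γ)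
    {σ : Equiv.Perm Γ.Dart} (hσ : PlaneMap Γ σ) {A : ℝ} (hA : 1 ≤ A) (hBB : BB A) :
    ∃ Q : V → V → ℝ, IsL1 Q ∧
      (∀ x y, x ∉ F → y ∉ F → (x ∉ U ∨ x ∈ M) → (y ∉ U ∨ y ∈ M) → Q x y = 0) ∧
      ∀ x y, (x ∉ U ∨ x ∈ M) → (y ∉ U ∨ y ∈ M) → Q x y ≤ 18 * pathDist G ℓ x y ∧
        Q x y ≤ 9 * (ρ x + ρ y) ∧
        min (pathDist G ℓ x y) (ρ x + ρ y) ≤ 128 * A * Swp.LL (Nat.card V) * Q x y := by
  classical
  obtain ⟨R, hR, hR'⟩ := h.embed hT' hσ hA hBB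
  have hL := Swp.LL_one (Nat.card V)
  have hmem : ∀ x : {x : V // x ∉ U ∨ x ∈ M}, 0 < ρ x → (x : V) ∈ F ∧ (x : V) ∈ M := by
    intro x hx
    have h1 : (x : V) ∈ F := by
      by_contra h2
      rw [h.rhoF _ h2] at hx
      exact lt_irrefl _ hx
    exact ⟨h1, x.2.resolve_left fun h2 => h2 (h.FU h1)⟩
  obtain ⟨Q, hQ, q1, q2, q3, q4⟩ := LL.H296.quot (V := {x : V // x ∉ U ∨ x ∈ M})
    (d := fun x y => pathDist G ℓ x y) (F := fun x y => R x y) (ρ := fun x => ρ x) (C := 1)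
    (K := 2 * A * Swp.LL (Nat.card V)) (fun x y => pd_nonneg h.pos _ _) (fun x => h.rho0 _)
    (fun x y => h.rho_lip _ _) (hR.comap _) zero_le_one (by nlinarith)
    (fun x y hx hy hd => by
      rw [one_mul]
      exact (hR' _ (hmem x hx).1 (hmem x hx).2 _ (hmem y hy).1 (hmem y hy).2).1 hd)
    (fun x y hx hy =>
      (hR' _ (hmem x hx).1 (hmem x hx).2 _ (hmem y hy).1 (hmem y hy).2).2)
  obtain ⟨b, hb⟩ := h.neP
  let φ : V → {x : V // x ∉ U ∨ x ∈ M} := fun x =>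
    if hx : x ∉ U ∨ x ∈ M then ⟨x, hx⟩ else ⟨b, Or.inl (h.disj b hb)⟩
  have hφ : ∀ x (hx : x ∉ U ∨ x ∈ M), φ x = ⟨x, hx⟩ := fun x hx => by
    simp only [φ, dif_pos hx]
  refine ⟨fun x y => Q (φ x) (φ y), hQ.comap φ, fun x y hx hy hx' hy' => ?_,
    fun x y hx hy => ?_⟩
  · beta_reduce
    rw [hφ x hx', hφ y hy']
    exact q1 _ _ (h.rhoF x hx) (h.rhoF y hy)
  · beta_reduce
    rw [hφ x hx, hφ y hy]
    refine ⟨(q2 ⟨x, hx⟩ ⟨y, hy⟩).trans_eq (by ring), q3 ⟨x, hx⟩ ⟨y, hy⟩,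
      (q4 ⟨x, hx⟩ ⟨y, hy⟩).trans_eq (by ring)⟩

end

end Vale.Agent.P235.H20
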