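import Vale.Agent.P235.H20.TE3
import Vale.Agent.P235.LL.H611.GRows
import Vale.Agent.P235.LL.Basic
import Vale.Agent.P235.R2.H882.MStar

/-! P235 (helper20), planar `O(log log n)`, row TE: the map of one step. -/

set_option autoImplicit false

namespace Vale.Agent.P235.H20

open SimpleGraph Vale.Agent.P235.LL

theorem mStarLL : Red.MStarLL 228352 := H882.mStar

/-- the black box, from the hand-in `StPlanarLogLog` -/
theorem bb : BB (219073 * 864 * 228352 * 4) := by
  intro W _ Γ ℓ' hc hℓ L hL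
  exact hL.embeds (by norm_num) mStarLL hc hℓ (by norm_num)

variable {V : Type} {G : SimpleGraph V} {ℓ : Sym2 V → ℝ}

theorem isT_TG {U P : Set V} {w : V → ℝ} : IsT G U P w (TG G U P w) where
  ss u v := by
    rw [TG_some_some]
    refine and_congr ?_ Iff.rfl
    exact ⟨fun h e => h (congrArg Subtype.val e), fun h e => h (Subtype.ext e)⟩
  ns _ := Iff.rfl

theorem conn_induce {U : Set V} (hne : U.Nonempty) (h : WConn G U) : (G.induce U).Connected := by
  have : Nonempty U := hne.to_subtype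
  refine { preconnected := ?_ }
  rintro ⟨x, hx⟩ ⟨y, hy⟩
  obtain ⟨p, hp⟩ := h x hx y hy
  exact ⟨p.induce U hp⟩

/-- a lower bound for the lengths -/
theorem exists_low [Finite V] (hℓ : ∀ e ∈ G.edgeSet, 0 < ℓ e) :
    ∃ m : ℝ, 0 < m ∧ ∀ e ∈ G.edgeSet, m ≤ ℓ e := by
  rcases G.edgeSet.eq_empty_or_nonempty with h | h
  · exact ⟨1, one_pos, fun e he => by rw [h] at he; exact absurd he (Set.notMem_empty e)⟩
  · obtain ⟨e, he, hmin⟩ := Set.exists_min_image G.edgeSet ℓ (Set.toFinite _) h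
    exact ⟨ℓ e, hℓ e he, hmin⟩

/-- heights on a piece which are strictly increasing and close to `κ τ` -/
theorem exists_eta [Finite V] (hℓ : ∀ e ∈ G.edgeSet, 0 < ℓ e) {w τ : V → ℝ} {κ : ℝ} (hκ : 0 < κ)
    (hτ : (∀ b, τ b = w b) ∨ ∀ b, τ b = 0) :
    ∃ η : V → ℝ, (∀ a b, w a < w b → η a < η b) ∧ ∀ b, ∀ e ∈ G.edgeSet, |η b - κ * τ b| ≤ ℓ e / 4 := by
  rcases hτ with h | h
  · refine ⟨fun b => κ * w b, fun a b hab => mul_lt_mul_of_pos_left hab hκ, fun b e he => ?_⟩
    rw [h b, sub_self, abs_zero]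
    have := hℓ e he
    positivity
  · obtain ⟨m, hm, hm'⟩ := exists_low hℓ
    obtain ⟨W, hW⟩ : ∃ W : ℝ, ∀ b, |w b| ≤ W := by
      refine ⟨⨆ b, |w b|, fun b => le_ciSup (f := fun b => |w b|) (Set.finite_range _).bddAbove b⟩
    refine ⟨fun b => m / (4 * (|W| + 1)) * w b,
      fun a b hab => mul_lt_mul_of_pos_left hab (by positivity), fun b e he => ?_⟩
    rw [h b, mul_zero, sub_zero, abs_mul, abs_of_pos (by positivity : 0 < m / (4 * (|W| + 1)))]
    have h1 : |w b| ≤ |W| + 1 := (hW b).trans ((le_abs_self W).trans (by linarith))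
    calc m / (4 * (|W| + 1)) * |w b| ≤ m / (4 * (|W| + 1)) * (|W| + 1) :=
          mul_le_mul_of_nonneg_left h1 (by positivity)
      _ = m / 4 := by field_simp
      _ ≤ ℓ e / 4 := by have := hm' e he; linarith

open Classical in
/-- the data of one step, from a coordinate -/
theorem step_of [Finite V] (hstd : Std G ℓ) {D : Dom V} (hD : GD G ℓ D) (k : Fin 3 × Bool) (j : ℕ) :
    ∃ hh : V → ℝ, Step G ℓ D.U (D.P k.1) (D.w k.1) hh (D.U ∩ D.vis k (j + 1)) (D.vis k j)ᶜ
      (dto G ℓ (D.vis k j)) := by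
  obtain ⟨hg, hk⟩ := hD
  obtain ⟨ct, hc⟩ := hk k
  have hκ : (0 : ℝ) < 2 ^ j := by positivity
  obtain ⟨η, hη, hη'⟩ := exists_eta (w := D.w k.1) (τ := D.tau k) hstd.pos hκ (by
    unfold Dom.tau
    by_cases h : k.2 = true
    · exact Or.inl fun b => if_pos h
    · exact Or.inr fun b => if_neg h)
  have hdisj : ∀ v ∈ D.P k.1, v ∉ D.U := fun v hv hu =>
    Set.disjoint_left.1 (hg.out k.1) hu hv
  have hFU : ∀ v, v ∉ D.vis k j → v ∈ D.U := fun v hv => by
    by_contra h
    exact hv fun h' => absurd h' h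
  -- edges between visible vertices
  have key : ∀ v ∈ D.U, v ∈ D.vis k (j + 1) → 1 / 2 ≤ 2 ^ j * D.s k v := fun v hv h => by
    have h1 := (h hv).2
    rw [pow_succ] at h1
    linarith
  have hy : ∀ v y, v ∈ D.U → v ∈ D.vis k (j + 1) → (y ∈ D.U ∨ y ∈ D.P k.1) → D.s k v ≤ D.s k y →
      y ∈ D.U ∩ D.vis k (j + 1) ∨ y ∈ D.P k.1 := by
    intro v y hv hv' hy hs
    rcases hy with hy | hy
    · refine Or.inl ⟨hy, fun _ => ⟨Nat.le_add_left 1 j, ?_⟩⟩
      have h1 := (hv' hv).2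
      have h2 : (2 : ℝ) ^ (j + 1) * D.s k v ≤ 2 ^ (j + 1) * D.s k y :=
        mul_le_mul_of_nonneg_left hs (by positivity)
      linarith
    · exact Or.inr hy
  let hh : V → ℝ := fun v => if v ∈ D.P k.1 then η v else 2 ^ j * D.c k v
  have hhU : ∀ v ∈ D.U, hh v = 2 ^ j * D.c k v := fun v hv =>
    if_neg fun h => hdisj v h hv
  have hhP : ∀ v ∈ D.P k.1, hh v = η v := fun v hv => if_pos hv
  have hclose : ∀ y, (y ∈ D.U ∨ y ∈ D.P k.1) → ∀ e ∈ G.edgeSet,
      |hh y - 2 ^ j * D.c k y| ≤ ℓ e / 4 := by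
    intro y hy e he
    by_cases h : y ∈ D.P k.1
    · rw [hhP y h, hc.cP y h]
      exact hη' y e he
    · rw [hhU y (hy.resolve_right h), sub_self, abs_zero]
      have := hstd.pos e he
      positivity
  refine ⟨hh, ?_⟩
  exact
  { pos := hstd.pos
    conn := hstd.conn
    disj := hdisj
    connU := conn_induce hg.ne hg.conn
    neP := hg.pne k.1
    nbP := fun b hb => by
      obtain ⟨v, hv, h⟩ := hg.foot k.1 b hb
      exact ⟨v, hv, h.symm⟩
    inj := fun a ha b hb h => hg.inj k.1 ha hb h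
    hhP := fun a ha b hb h => by
      rw [hhP a ha, hhP b hb]
      exact hη a b h
    MU := Set.inter_subset_left
    FU := fun v hv => hFU v hv
    slope := by
      intro x hx y hy' hxy
      have hxU := hFU x hx
      have hyU := hFU y hy'
      rw [hhU x hxU, hhU y hyU, ← mul_sub, abs_mul, abs_of_pos hκ]
      have h1 := hc.edge x y hxU hyU hxy
      have hl := hstd.pos _ (G.mem_edgeSet.2 hxy)
      have h2 : 2 ^ j * D.s k x ≤ 1 := by
        rcases Nat.eq_zero_or_pos j with h0 | h0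
        · rw [h0, pow_zero, one_mul]
          exact hc.s1 x
        · by_contra h3
          exact hx fun _ => ⟨h0, (not_le.1 h3).le⟩
      calc 2 ^ j * |D.c k x - D.c k y| ≤ 2 ^ j * (D.s k x * ℓ s(x, y)) :=
            mul_le_mul_of_nonneg_left
              (h1.trans (mul_le_mul_of_nonneg_right (min_le_left _ _) hl.le)) hκ.le
        _ = 2 ^ j * D.s k x * ℓ s(x, y) := by ring
        _ ≤ 1 * ℓ s(x, y) := mul_le_mul_of_nonneg_right h2 hl.le
        _ = ℓ s(x, y) := one_mul _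
    dn := by
      rintro v ⟨hv, hv'⟩
      have h1 := key v hv hv'
      have hs : 0 < D.s k v := by
        by_contra h2
        have := mul_nonpos_of_nonneg_of_nonpos hκ.le (not_lt.1 h2)
        linarith
      obtain ⟨y, hy1, hvy, hsy, he⟩ := hc.dn v hv hs
      refine ⟨y, hvy, hy v y hv hv' hy1 hsy, ?_⟩
      have hmem := G.mem_edgeSet.2 hvy
      have hl := hstd.pos _ hmem
      have h2 := (abs_le.1 (hclose y hy1 _ hmem)).2
      rw [hhU v hv]
      have h3 : 2 ^ j * (D.c k v - D.c k y) = 2 ^ j * D.s k v * ℓ s(v, y) := by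
        rw [he]; ring
      have h4 : 1 / 2 * ℓ s(v, y) ≤ 2 ^ j * D.s k v * ℓ s(v, y) :=
        mul_le_mul_of_nonneg_right h1 hl.le
      rw [← h3, mul_sub] at h4
      linarith
    up := by
      rintro v ⟨hv, hv'⟩
      by_cases hS : v ∈ H510.SP G D.U (D.P k.1)
      · exact Or.inr hS.2
      left
      have h1 := key v hv hv'
      have hs : 0 < D.s k v := by
        by_contra h2
        have := mul_nonpos_of_nonneg_of_nonpos hκ.le (not_lt.1 h2)
        linarith
      obtain ⟨y, hy1, hvy, hsy, he⟩ := hc.up v hv hS hs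
      refine ⟨y, hvy, hy v y hv hv' hy1 hsy, ?_⟩
      have hmem := G.mem_edgeSet.2 hvy
      have hl := hstd.pos _ hmem
      have h2 := (abs_le.1 (hclose y hy1 _ hmem)).1
      rw [hhU v hv]
      have h3 : 2 ^ j * (D.c k y - D.c k v) = 2 ^ j * D.s k v * ℓ s(v, y) := by
        rw [he]; ring
      have h4 : 1 / 2 * ℓ s(v, y) ≤ 2 ^ j * D.s k v * ℓ s(v, y) :=
        mul_le_mul_of_nonneg_right h1 hl.le
      rw [← h3, mul_sub] at h4
      linarith
    rho0 := fun x => LL.dto_nonneg hstd.pos _ x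
    rho1 := fun x y h => by
      have h1 := (abs_le.1 (LL.dto_adj hstd.conn hstd.pos (D.vis k j) h)).2
      linarith
    rhoF := fun x hx => LL.dto_zero hstd.conn hstd.pos (not_not.1 hx) }

/-- **row TE** -/
theorem rowTE : RowTE := by
  refine ⟨18 * (128 * (219073 * 864 * 228352 * 4)), by norm_num, ?_⟩
  intro V _ G ℓ hstd D hD k j
  obtain ⟨hh, h⟩ := step_of hstd hD k j
  obtain ⟨σ, hσ⟩ := hD.1.c k.1
  obtain ⟨Q, hQ, h0, h1⟩ := h.quot isT_TG hσ (by norm_num) bb
  have hv1 : ∀ a ∈ D.vis k (j + 1), a ∉ D.U ∨ a ∈ D.U ∩ D.vis k (j + 1) := fun a ha =>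
    (Classical.em (a ∈ D.U)).symm.imp id fun h => ⟨h, ha⟩
  have hv0 : ∀ a ∈ D.vis k j, a ∈ D.vis k (j + 1) := by
    intro a ha hU
    obtain ⟨h2, h3⟩ := ha hU
    obtain ⟨ct, hc⟩ := hD.2 k
    refine ⟨Nat.le_add_left 1 j, ?_⟩
    have := hc.s0 a
    rw [pow_succ]
    nlinarith [pow_pos (zero_lt_two' ℝ) j]
  refine ⟨fun x y => 1 / 18 * Q x y, hQ.smul (by norm_num), fun a ha b hb => ?_,
    fun a ha b hb => ?_, fun a ha b hb => ?_⟩
  · have h2 := h0 a b (not_not.2 ha) (not_not.2 hb) (hv1 a (hv0 a ha)) (hv1 b (hv0 b hb))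
    beta_reduce
    rw [h2, mul_zero]
  · have h2 := (h1 a b (hv1 a ha) (hv1 b hb)).1
    beta_reduce
    linarith
  · have h2 := (h1 a b (hv1 a ha) (hv1 b hb)).2.2
    beta_reduce
    refine h2.trans_eq ?_
    ring

end Vale.Agent.P235.H20
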